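import Crest.Agent.N255.Cs.Vt
import Crest.Agent.N255.Wv.Var

/-!
# Row 255 (helper2): the base connection of a vertex family (longitude cut)
-/

set_option autoImplicit false
open Finset

noncomputable section

namespace Crest.Agent.N255.Ms

open Cs Cs.Tw Tp

variable {X : Type} [TopologicalSpace X] {K : Type} [CommRing K] {p : ℕ} [hpp : Fact p.Prime]
  {O : Type} [CommRing O] [Algebra K O] {G : Gr (Gm p) K O} {m I J L N : Ideal O}
  {t : Fin 3 → Bool}

section tor
variable (T : To K X) {a b a' b' : (Tw G)ˣ}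

/-- the linear part of the wall base -/
theorem g_lin (hI : G.Id I) (ha : a ∈ U hI) (hb : b ∈ U hI) (e : Sx 1 X) :
    In (I * I) ((T.g a b e).val - 1 - (T.al e • (a.val - 1) + T.be e • (b.val - 1))) :=
  In.eq (In.add (In.add (zpow_one_lin hI ha (T.al e)) (zpow_one_lin hI hb (T.be e)))
    (o_mul_mem hI hI (zpow_mem ha (T.al e)) (zpow_mem hb (T.be e)))) (by
      simp only [To.g, Units.val_mul]; noncomm_ring)

theorem g_one {e : Sx 1 X} (h1 : T.al e = 0) (h2 : T.be e = 0) : T.g a b e = 1 := by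
  simp [To.g, h1, h2]

theorem g_var (hm : G.Id m) (hL : G.Id L) (ha : a ∈ U hm) (hb : b ∈ U hm) (ha' : a' ∈ U hm)
    (hb' : b' ∈ U hm) (h1 : In L (a'.val - a.val)) (h2 : In L (b'.val - b.val)) (e : Sx 1 X) :
    In (m * L) ((T.g a' b' e).val - (T.g a b e).val -
      (T.al e • (a'.val - a.val) + T.be e • (b'.val - b.val))) := by
  have e1 := o_mul_mem hL hm (zpow_sub hL h1 (T.al e)) (zpow_mem hb' (T.be e))
  rw [mul_comm L] at e1
  exact In.eq (In.add (In.add (In.add (zpow_lin' hm hL h1 ha ha' (T.al e))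
    (zpow_lin' hm hL h2 hb hb' (T.be e))) e1)
    (o_mul_mem hm hL (zpow_mem ha (T.al e)) (zpow_sub hL h2 (T.be e)))) (by
      simp only [To.g, Units.val_mul]; noncomm_ring)

theorem g_um {O' : Type} [CommRing O'] [Algebra K O'] {G' : Gr (Gm p) K O'} {φ : O →ₐ[K] O'}
    (h : G.Hom G' φ) (a b : (Tw G)ˣ) (e : Sx 1 X) :
    um h (T.g a b e) = T.g (um h a) (um h b) e := by simp only [To.g, map_mul, map_zpow]

end tor

variable (V : Vt K X t) (sl : Sx 1 X → Option (Fin 3)) (x a b : Fin 3 → (Tw G)ˣ)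

/-- the jump of the holonomy on `al` -/
def ja (j : Fin 3) : Tw G := (a j).val - if t j then (x j).val else 1 + V.la x j

/-- the jump of the holonomy on `be` -/
def jb (j : Fin 3) : Tw G := (b j).val - if t j then 1 + V.la x j else (x j).val

/-- the jump cochain of the slot `j` -/
def dl (j : Fin 3) : Co (Tw G) 1 X := fun e => (V.T j).al e • ja V x a j + (V.T j).be e • jb V x b j

/-- the jump cochain -/
def jp : Co (Tw G) 1 X := fun e => (sl e).elim 0 fun j => dl V x a b j e

/-- the linear part of the base -/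
def lin : Co (Tw G) 1 X := fun e => (sl e).elim (∑ i, V.M.x i e • ((x i).val - 1)) fun j =>
  (V.T j).al e • ((a j).val - 1) + (V.T j).be e • ((b j).val - 1)

variable {x}

/-- the standard connection -/
def gs0 (hm : G.Id m) (hn : IsNilpotent m) (hx : ∀ j, x j ∈ U hm) : Cn G X :=
  V.M.gst hm hn (μ := fun i => (x i).val - 1) hx

/-- **the base**: standard off the slots, `a ^ al * b ^ be` on the slots -/
def bs (hm : G.Id m) (hn : IsNilpotent m) (hx : ∀ j, x j ∈ U hm) : Cn G X := fun e =>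
  (sl e).elim (gs0 V hm hn hx e) fun j => (V.T j).g (a j) (b j) e

variable {V sl a b} {hm : G.Id m} {hn : IsNilpotent m} {hx : ∀ j, x j ∈ U hm} {e : Sx 1 X} {j : Fin 3}

theorem val_gs0 (e : Sx 1 X) : (gs0 V hm hn hx e).val = 1 + V.M.v (fun i => (x i).val - 1) e :=
  V.M.val_gst _ _ _ _

theorem bs_none (h : sl e = none) : bs V sl a b hm hn hx e = gs0 V hm hn hx e := by simp [bs, h]

theorem bs_some (h : sl e = some j) : bs V sl a b hm hn hx e = (V.T j).g (a j) (b j) e := by
  simp [bs, h]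

theorem jp_none (h : sl e = none) : jp V sl x a b e = 0 := by simp [jp, h]

theorem jp_some (h : sl e = some j) : jp V sl x a b e = dl V x a b j e := by simp [jp, h]

theorem ja_M (h : t j = true) (h' : a j = x j) : ja V x a j = 0 := by simp [ja, h, h']

theorem gs0_U (hI : G.Id I) (h : ∀ j, x j ∈ U hI) (e : Sx 1 X) : gs0 V hm hn hx e ∈ U hI :=
  V.M.gst_U hm hn _ hI h e

theorem bs_U (hI : G.Id I) (h : ∀ j, x j ∈ U hI) (ha : ∀ j, a j ∈ U hI) (hb : ∀ j, b j ∈ U hI)
    (e : Sx 1 X) : bs V sl a b hm hn hx e ∈ U hI := by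
  rcases q : sl e with _ | j
  · rw [bs_none q]; exact gs0_U hI h e
  · rw [bs_some q]; exact mul_mem (zpow_mem (ha j) _) (zpow_mem (hb j) _)

theorem gs0_one (h1 : ∀ i, V.M.x i e = 0) (h2 : ∀ i l, V.M.y i l e = 0) : gs0 V hm hn hx e = 1 :=
  Units.ext (by simp [val_gs0, Mg.v, h1, h2])

theorem bs_one (h1 : sl e = none → (∀ i, V.M.x i e = 0) ∧ ∀ i l, V.M.y i l e = 0)
    (h2 : ∀ j, sl e = some j → (V.T j).al e = 0 ∧ (V.T j).be e = 0) : bs V sl a b hm hn hx e = 1 := by
  rcases q : sl e with _ | j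
  · rw [bs_none q]; exact gs0_one (h1 q).1 (h1 q).2
  · rw [bs_some q]; exact g_one _ (h2 j q).1 (h2 j q).2

/-- the base only depends on the cochains -/
theorem bs_congr {V' : Vt K X t} {sl' : Sx 1 X → Option (Fin 3)} (h : sl e = sl' e)
    (h1 : ∀ i, V.M.x i e = V'.M.x i e) (h2 : ∀ i l, V.M.y i l e = V'.M.y i l e)
    (h3 : ∀ j, (V.T j).al e = (V'.T j).al e) (h4 : ∀ j, (V.T j).be e = (V'.T j).be e) :
    bs V sl a b hm hn hx e = bs V' sl' a b hm hn hx e := by
  rcases q : sl e with _ | j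
  · rw [bs_none q, bs_none (h ▸ q)]
    exact Units.ext (by simp only [val_gs0, Mg.v, h1, h2])
  · rw [bs_some q, bs_some (h ▸ q), To.g, To.g, h3, h4]

/-- the base is linear modulo `I ^ 2`, on all edges -/
theorem bs_lin (hI : G.Id I) (h : ∀ j, x j ∈ U hI) (ha : ∀ j, a j ∈ U hI) (hb : ∀ j, b j ∈ U hI)
    (e : Sx 1 X) : In (I * I) ((bs V sl a b hm hn hx e).val - 1 - lin V sl x a b e) := by
  rcases q : sl e with _ | j
  · rw [bs_none q, val_gs0, lin, q, Mg.v]
    exact In.eq (In.sum (s := univ) fun i _ => In.sum (s := univ) fun l _ =>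
      In.zsmul (o_mul_mem hI hI (h i) (h l)) (V.M.y i l e)) (by simp only [Option.elim]; abel)
  · rw [bs_some q, lin, q]; exact g_lin _ hI (ha j) (hb j) e

theorem dl_in (h1 : In L (ja V x a j)) (h2 : In L (jb V x b j)) (e : Sx 1 X) :
    In L (dl V x a b j e) := In.add (h1.zsmul _) (h2.zsmul _)

theorem jp_in (h : ∀ j, sl e = some j → In L (ja V x a j) ∧ In L (jb V x b j)) :
    In L (jp V sl x a b e) := by
  rcases q : sl e with _ | j
  · rw [jp_none q]; exact in_zero
  · rw [jp_some q]; exact dl_in (h j q).1 (h j q).2 e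

/-- on the torus edges the wall base is the standard connection plus the jump -/
theorem g_sub (hN : G.Id N) (hL : G.Id L) (Nm : N ≤ m) (h : ∀ j, x j ∈ U hN) (ha : a j ∈ U hm)
    (hb : b j ∈ U hm) (h1 : In L (ja V x a j)) (h2 : In L (jb V x b j)) (he : e ∈ (V.T j).P.S 1) :
    In (N * N * N ⊔ m * L) (((V.T j).g (a j) (b j) e).val - (gs0 V hm hn hx e).val -
      dl V x a b j e) := by
  have NN : N * N ≤ m := Ideal.mul_le_left.trans Nm
  let l := un hm hn _ (NN (V.la_in hN h j))
  have hl : l.val = 1 + V.la x j := val_un _ _ _ _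
  have lm : l ∈ U hm := un_mem _ _ _ _ _ (NN (V.la_in hN h j))
  have eu : (if t j then x j else l).val = if t j then (x j).val else 1 + V.la x j := by
    split_ifs; exacts [rfl, hl]
  have ew : (if t j then l else x j).val = if t j then 1 + V.la x j else (x j).val := by
    split_ifs; exacts [hl, rfl]
  have e1 := g_var (V.T j) hm hL (a := if t j then x j else l) (b := if t j then l else x j)
    (by split_ifs; exacts [hx j, lm]) (by split_ifs; exacts [lm, hx j]) ha hb (eu ▸ h1) (ew ▸ h2) e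
  have e2 := V.g_wall hN ((hN.mul hN).mul hN) le_rfl h j (u := if t j then x j else l)
    (w := if t j then l else x j) (by rw [eu, sub_self]; exact in_zero)
    (by rw [ew, sub_self]; exact in_zero) hl he
  refine In.eq (In.add (e2.mono le_sup_left) (e1.mono le_sup_right)) ?_
  rw [val_gs0, eu, ew, dl, ja, jb]; abel

variable (V sl x a b) in
/-- the edge lies on the torus of its slot and the jumps of its slot lie in `L` -/
def Ok (L : Ideal O) (e : Sx 1 X) : Prop :=
  ∀ j, sl e = some j → e ∈ (V.T j).P.S 1 ∧ In L (ja V x a j) ∧ In L (jb V x b j)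

theorem Ok.none (h : sl e = none) : Ok V sl x a b L e := fun j q => by simp [h] at q

theorem Ok.mono (h : Ok V sl x a b L e) (l : L ≤ J) : Ok V sl x a b J e :=
  fun j q => ⟨(h j q).1, l (h j q).2.1, l (h j q).2.2⟩

theorem bs_sub (hN : G.Id N) (hL : G.Id L) (Nm : N ≤ m) (h : ∀ j, x j ∈ U hN) (ha : ∀ j, a j ∈ U hm)
    (hb : ∀ j, b j ∈ U hm) (k : Ok V sl x a b L e) : In (N * N * N ⊔ m * L)
      ((bs V sl a b hm hn hx e).val - (gs0 V hm hn hx e).val - jp V sl x a b e) := by
  rcases q : sl e with _ | j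
  · rw [bs_none q, jp_none q, sub_self, sub_zero]; exact in_zero
  · rw [bs_some q, jp_some q]
    exact g_sub hN hL Nm h (ha j) (hb j) (k j q).2.1 (k j q).2.2 (k j q).1

theorem bs_dif (hN : G.Id N) (hL : G.Id L) (Nm : N ≤ m) (h : ∀ j, x j ∈ U hN) (ha : ∀ j, a j ∈ U hm)
    (hb : ∀ j, b j ∈ U hm) (k : Ok V sl x a b L e) :
    In (N * N * N ⊔ L) ((bs V sl a b hm hn hx e).val - (gs0 V hm hn hx e).val) :=
  In.eq (In.add ((bs_sub hN hL Nm h ha hb k).mono (sup_le_sup_left Ideal.mul_le_right _))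
    ((jp_in fun j q => (k j q).2).mono le_sup_right)) (sub_add_cancel _ _).symm

/-- hypothesis `h` of `Vt.end_eq` -/
theorem bs_std (hN : G.Id N) (hL : G.Id L) (Nm : N ≤ m) (NL : N * N * N ≤ L) (h : ∀ j, x j ∈ U hN)
    (ha : ∀ j, a j ∈ U hm) (hb : ∀ j, b j ∈ U hm) (k : Ok V sl x a b L e) :
    In L ((bs V sl a b hm hn hx e).val - (1 + V.M.v (fun i => (x i).val - 1) e)) :=
  val_gs0 (V := V) (hm := hm) (hn := hn) (hx := hx) e ▸
    (bs_dif hN hL Nm h ha hb k).mono (sup_le NL le_rfl)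

variable {σ : Sx 2 X}

/-- **the curvature of the base is the coboundary of the jump** -/
theorem cur_bs (hN : G.Id N) (hL : G.Id L) (Nm : N ≤ m) (Lm : L ≤ m) (h : ∀ j, x j ∈ U hN)
    (ha : ∀ j, a j ∈ U hm) (hb : ∀ j, b j ∈ U hm) (hσ : σ ∈ V.M.P.S 2)
    (k : ∀ i l, i < l → Ok V sl x a b L (e2 σ i l)) :
    In (N * N * N ⊔ m * L) (cur (bs V sl a b hm hn hx) σ - cob K (jp V sl x a b) σ) := by
  have hN3 := (hN.mul hN).mul hN
  have s := fun i l q => bs_sub (hn := hn) (hx := hx) hN hL Nm h ha hb (k i l q)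
  have d := fun i l q => bs_dif (hn := hn) (hx := hx) hN hL Nm h ha hb (k i l q)
  have l1 : m * (N * N * N ⊔ L) ≤ N * N * N ⊔ m * L := by
    rw [Ideal.mul_sup]; exact sup_le_sup_right Ideal.mul_le_right _
  have l2 : N * N * N ⊔ L ≤ m := sup_le (Ideal.mul_le_right.trans Nm) Lm
  have e1 := (fc_sub_mem (g := gs (gs0 V hm hn hx) σ) (g' := gs (bs V sl a b hm hn hx) σ)
    (a := 0) (b := 1) (c := 2) hm (hN3.sup hL) (gs0_U hm hx _) (gs0_U hm hx _) (d 0 1 (by decide))
    (d 1 2 (by decide))).mono (sup_le l1 ((Ideal.mul_mono_left l2).trans l1))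
  have e3 : In (N * N * N) (cur (gs0 V hm hn hx) σ) := V.M.cur_gst hm hn _ hN h σ hσ
  refine In.eq (In.add (In.add e1 (e3.mono le_sup_left)) (In.add (In.sub (s 1 2 (by decide))
    (s 0 2 (by decide))) (s 0 1 (by decide)))) ?_
  simp only [cob_d1, d1, cur, df, gs]
  abel

theorem cur_none (k : ∀ i l, i < l → sl (e2 σ i l) = none) :
    cur (bs V sl a b hm hn hx) σ = cur (gs0 V hm hn hx) σ :=
  fc_congr (bs_none (k 0 1 (by decide))) (bs_none (k 1 2 (by decide))) (bs_none (k 0 2 (by decide)))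

theorem cur_some (k : ∀ i l, i < l → sl (e2 σ i l) = some j) :
    cur (bs V sl a b hm hn hx) σ = cur ((V.T j).g (a j) (b j)) σ :=
  fc_congr (bs_some (k 0 1 (by decide))) (bs_some (k 1 2 (by decide))) (bs_some (k 0 2 (by decide)))

theorem cur_core (hN : G.Id N) (h : ∀ j, x j ∈ U hN) (hσ : σ ∈ V.M.P.S 2)
    (k : ∀ i l, i < l → sl (e2 σ i l) = none) : In (N * N * N) (cur (bs V sl a b hm hn hx) σ) :=
  cur_none (hm := hm) (hn := hn) (hx := hx) (V := V) (a := a) (b := b) k ▸
    V.M.cur_gst hm hn _ hN h σ hσ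

theorem cur_slot (hJ : G.Id J) (h : In J ((a j).val * (b j).val - (b j).val * (a j).val))
    (hσ : σ ∈ (V.T j).P.S 2) (k : ∀ i l, i < l → sl (e2 σ i l) = some j) :
    In J (cur (bs V sl a b hm hn hx) σ) :=
  cur_some (hm := hm) (hn := hn) (hx := hx) (V := V) (a := a) (b := b) k ▸
    (V.T j).cur_g hJ h σ hσ

theorem cob_dl (hσ : σ ∈ (V.T j).P.S 2) : cob K (dl V x a b j) σ = 0 := by
  simp only [cob_d1, d1, dl, z_add (V.T j).ha hσ, z_add (V.T j).hb hσ, add_smul]
  abel

theorem cob_jp_none (k : ∀ i l, i < l → sl (e2 σ i l) = none) : cob K (jp V sl x a b) σ = 0 := by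
  simp [cob_d1, d1, jp_none (k 0 1 (by decide)), jp_none (k 1 2 (by decide)),
    jp_none (k 0 2 (by decide))]

theorem cob_jp_some (hσ : σ ∈ (V.T j).P.S 2) (k : ∀ i l, i < l → sl (e2 σ i l) = some j) :
    cob K (jp V sl x a b) σ = 0 := by
  rw [← cob_dl (x := x) (a := a) (b := b) hσ]
  simp only [cob_d1, d1, jp_some (k 0 1 (by decide)), jp_some (k 1 2 (by decide)),
    jp_some (k 0 2 (by decide))]

/-- the commutator of a slot -/
theorem cm_in (hN : G.Id N) (hL : G.Id L) (Nm : N ≤ m) (h : ∀ j, x j ∈ U hN)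
    (hb : b j ∈ U hm) (h1 : In L (ja V x a j)) (h2 : In L (jb V x b j)) :
    In (N * N * N ⊔ m * L) ((a j).val * (b j).val - (b j).val * (a j).val) := by
  have s := fun {u v : Tw G} (hu : In m u) (hv : In L v) =>
    In.sub (o_mul_mem hm hL hu hv) (mul_comm L m ▸ o_mul_mem hL hm hv hu)
  have c := In.sub (mul_assoc N N N ▸ o_mul_mem hN (hN.mul hN) (h j) (V.la_in hN h j))
    (o_mul_mem (hN.mul hN) hN (V.la_in hN h j) (h j))
  have xm : In m ((x j).val - 1) := Nm (h j)
  have lm : In m (V.la x j) := (Ideal.mul_le_left.trans Nm) (V.la_in hN h j)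
  unfold ja at h1
  unfold jb at h2
  split_ifs at h1 h2
  · refine In.eq (In.add (c.mono le_sup_left) ((In.sub (s xm h2) (s hb h1)).mono le_sup_right)) ?_
    noncomm_ring
  · refine In.eq (In.add (c.neg.mono le_sup_left) ((In.sub (s lm h2) (s hb h1)).mono le_sup_right)) ?_
    noncomm_ring

section map
variable {O' : Type} [CommRing O'] [Algebra K O'] {G' : Gr (Gm p) K O'} {φ : O' →ₐ[K] O}

/-- on a slot the base is the image of the wall base -/
theorem bs_um (hφ : G'.Hom G φ) {a' b' : (Tw G')ˣ} (h1 : a j = um hφ a') (h2 : b j = um hφ b')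
    (h : sl e = some j) : bs V sl a b hm hn hx e = um hφ ((V.T j).g a' b' e) := by
  rw [bs_some h, g_um, h1, h2]

end map

section cut
variable {C : Fin 3 → Set X} {n : ℕ}

open Classical in
/-- the slot of the last vertex -/
def slv (C : Fin 3 → Set X) (e : Sx 1 X) : Option (Fin 3) :=
  if h : ∃ j, Set.range (bk 0 e) ⊆ C j then some h.choose else none

theorem slv_some (hC : Pairwise fun i j => Disjoint (C i) (C j)) :
    slv C e = some j ↔ Set.range (bk 0 e) ⊆ C j := by
  unfold slv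
  split_ifs with h
  · refine ⟨fun q => Option.some.inj q ▸ h.choose_spec, fun q => congrArg some ?_⟩
    by_contra n
    obtain ⟨y, hy⟩ := Set.range_nonempty (bk 0 e)
    exact Set.disjoint_left.1 (hC n) (h.choose_spec hy) (q hy)
  · exact ⟨fun q => by simp at q, fun q => absurd ⟨j, q⟩ h⟩

theorem slv_meet (h : slv C e = some j) : ∃ y ∈ Set.range e, y ∈ C j := by
  unfold slv at h
  split_ifs at h with q
  obtain ⟨y, hy⟩ := Set.range_nonempty (bk 0 e)
  exact ⟨y, range_bk 0 e hy, Option.some.inj h ▸ q.choose_spec hy⟩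

theorem slv_in (hC : Pairwise fun i j => Disjoint (C i) (C j)) (h : Set.range e ⊆ C j) :
    slv C e = some j := (slv_some hC).2 ((range_bk 0 e).trans h)

theorem slv_ne (h : Set.range e ⊆ (C j)ᶜ) : slv C e ≠ some j := fun q =>
  let ⟨_, h1, h2⟩ := slv_meet q; h h1 h2

theorem slv_out (h : ∀ j, Set.range e ⊆ (C j)ᶜ) : slv C e = none :=
  Option.eq_none_iff_forall_ne_some.2 fun j => slv_ne (h j)

end cut

section field
variable {K : Type} [Field K] [Algebra K O] {G : Gr (Gm p) K O} {V : Vt K X t}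
  {x a b : Fin 3 → (Tw G)ˣ} {C : Fin 3 → Set X}

open Classical in
theorem ct_apply (A : Set X) {n : ℕ} (u : Co K n X) (σ : Sx n X) :
    Wv.ct A u σ = if Set.range (bk 0 σ) ⊆ A then u σ else 0 := by
  simp [Wv.ct, Wn.glue, cup, Wn.cut, fr_self]

/-- integer cochains as scalar cochains -/
def zc (K : Type) [CommRing K] {n : ℕ} (u : Co ℤ n X) : Co K n X := fun σ => (u σ : K)

/-- the jump in terms of cut scalar cochains -/
theorem jp_eq (hC : Pairwise fun i j => Disjoint (C i) (C j)) (e : Sx 1 X) :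
    jp V (slv C) x a b e = ∑ j, (Wv.ct (C j) (zc K (V.T j).al) e • ja V x a j +
      Wv.ct (C j) (zc K (V.T j).be) e • jb V x b j) := by
  simp only [ct_apply, ← slv_some hC]
  rcases q : slv C e with _ | j
  · simp [jp_none q]
  · rw [jp_some q, sum_eq_single j (fun i _ n => by simp [n.symm]) (by simp)]
    simp only [if_true, dl, zc, Int.cast_smul_eq_zsmul]

/-- the linear part in terms of cut scalar cochains -/
theorem lin_eq (hC : Pairwise fun i j => Disjoint (C i) (C j)) (e : Sx 1 X) :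
    lin V (slv C) x a b e = ∑ i, Wv.ct (⋃ j, C j)ᶜ (zc K (V.M.x i)) e • ((x i).val - 1) +
      ∑ j, (Wv.ct (C j) (zc K (V.T j).al) e • ((a j).val - 1) +
        Wv.ct (C j) (zc K (V.T j).be) e • ((b j).val - 1)) := by
  have h0 : Set.range (bk 0 e) ⊆ (⋃ j, C j)ᶜ ↔ slv C e = none := by
    have u : ∀ y, Set.range (bk 0 e) = {bk 0 e y} := fun y => by
      have : Subsingleton (stdSimplex ℝ (Fin (0 + 1))) := inferInstanceAs (Subsingleton (stdSimplex ℝ (Fin 1)))
      exact Set.range_eq_singleton fun z => by rw [Subsingleton.elim z y]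
    simp only [Option.eq_none_iff_forall_ne_some, ne_eq, slv_some hC, u (stdSimplex.vertex 0),
      Set.singleton_subset_iff, Set.mem_compl_iff, Set.mem_iUnion, not_exists]
  simp only [ct_apply, ← slv_some hC, h0, lin]
  rcases q : slv C e with _ | j
  · simp [zc, Int.cast_smul_eq_zsmul]
  · rw [Option.elim_some, sum_eq_zero fun i _ => by simp,
      sum_eq_single j (fun i _ n => by simp [n.symm]) (by simp)]
    simp [zc, Int.cast_smul_eq_zsmul]

end field

end Crest.Agent.N255.Ms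

end
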